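import Vale.Agent.P011.H402.Main

open Matrix Vale.Agent.P011S Vale.Agent.P011.H402

namespace Vale.Agent.Results.P011.UnitaryStable

/-- Margulis-Platonov for special unitary groups of anisotropic hermitian forms over division
algebras of arbitrary degree with a formally positive involution of the second kind: a
noncentral normal subgroup contains all commutators of unitary elements, the quotient is
a homomorphic image of the reduced unitary Whitehead group of the division algebra, and in
square-free degree the quotient is trivial. The last alternative of the hypothesis on the form
holds, by the local-global principle of Landherr, for all anisotropic forms in dimension at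
least four. -/
theorem result {K D F : Type} [Field K] [NumberField K] [StarRing K]
    [DivisionRing D] [StarRing D] [CharZero D] [Algebra K D] [StarModule K D]
    [FiniteDimensional K D] [Algebra.IsCentral K D] [Field F] [Algebra K F]
    (hK : ∃ k : K, star k ≠ k) (hpos : IsFormallyPositive D)
    {p : ℕ} (hdeg : Module.finrank K D = p ^ 2) (f : D →ₐ[K] Matrix (Fin p) (Fin p) F)
    {m : ℕ} (H : Matrix (Fin m) (Fin m) D) (hH : IsAnisotropicForm H)
    (hM : HasOrthonormal H (12 * Module.finrank ℚ D) ∨ IsTwoUniversal H ∨
      (3 ≤ m ∧ IsUniversal H 2 ∧ HasStableValues H))
    (N : Subgroup (SU f H)) [N.Normal] :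
    N ≤ Subgroup.center (SU f H) ∨
      (ContainsCommutators f H N ∧ IsQuotientOfSUK f (SU f H ⧸ N) ∧
        (Squarefree p → N = ⊤)) :=
  normal_all hK hpos hdeg f H hH hM N

end Vale.Agent.Results.P011.UnitaryStable
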