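import Vale.Agent.P011.H897.Comb

open Matrix Vale.Agent.P011S Vale.Agent.P011.H402

namespace Vale.Agent.Results.P011.UnitaryStructure

/-- Special unitary groups of anisotropic hermitian forms over division algebras of arbitrary
degree with a formally positive involution of the second kind. The last alternative of the
hypothesis on the form holds, by the local-global principle of Landherr, for all anisotropic
forms in dimension at least four.

First part: normal subgroups. Second part: subgroups `S` normalized by a noncentral subgroup `T`
which is reached from the whole group by finitely many steps to a normal subgroup or to a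
subgroup of finite index (`T = ⊤`: normal subgroups `S`; `T = S`: reached subgroups `S`). Third
part: subgroups of finite index. Fourth part: subgroups of the unitary group normalized by its
commutator subgroup, and reached subgroups of all groups in between. Fifth part: the commutator
subgroup of the unitary group is perfect, and simple modulo its centre; it is the whole special
unitary group if the degree is square-free. -/
theorem result {K D F : Type} [Field K] [NumberField K] [StarRing K]
    [DivisionRing D] [StarRing D] [CharZero D] [Algebra K D] [StarModule K D]
    [FiniteDimensional K D] [Algebra.IsCentral K D] [Field F] [Algebra K F]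
    (hK : ∃ k : K, star k ≠ k) (hpos : IsFormallyPositive D)
    {p : ℕ} (hdeg : Module.finrank K D = p ^ 2) (f : D →ₐ[K] Matrix (Fin p) (Fin p) F)
    {m : ℕ} (H : Matrix (Fin m) (Fin m) D) (hH : IsAnisotropicForm H)
    (hM : HasOrthonormal H (12 * Module.finrank ℚ D) ∨ IsTwoUniversal H ∨
      (3 ≤ m ∧ IsUniversal H 2 ∧ HasStableValues H)) :
    (∀ (N : Subgroup (SU f H)) [N.Normal],
      N ≤ Subgroup.center (SU f H) ∨
        (ContainsCommutators f H N ∧ IsQuotientOfSUK f (SU f H ⧸ N) ∧
          (Squarefree p → N = ⊤))) ∧
    (∀ S T : Subgroup (SU f H), IsReached T → ¬ T ≤ Subgroup.center (SU f H) →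
      (∀ t ∈ T, ∀ s ∈ S, t * s * t⁻¹ ∈ S) →
      S ≤ Subgroup.center (SU f H) ∨ IsLarge f H S) ∧
    (∀ S : Subgroup (SU f H), S.index ≠ 0 → IsLarge f H S) ∧
    HasDichotomy H ∧
    IsQuasisimple ⁅UH H, UH H⁆ ∧ (Squarefree p → SU f H = ⁅UH H, UH H⁆) :=
  all_clauses hK hpos hdeg f H hH hM

end Vale.Agent.Results.P011.UnitaryStructure
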